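import Vale.Agent.P302.Bridge
import Vale.Agent.P302.B19.Verify

namespace Vale.Agent.P302.B19

open Vale.Agent.P302 Vale.Agent.P302.V2

theorem main : IsInstance (inst cap items) ∧ 19 < OPT (inst cap items) ∧
    LP (inst cap items) ≤ 43199 / 2304 := by
  have hL : 0 < cap := by decide
  refine ⟨inst_isInstance hL items_ok, lt_opt hL items_ok not_pk, ?_⟩
  have h := lp_le hL (D := 20736) (by decide) pats pats_ok cover_ok
  rw [value_ok] at h
  refine le_trans h (le_of_eq ?_)
  norm_num

end Vale.Agent.P302.B19
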